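import Mathlib

/-!
Helper lemmas for P204: almost complex structures on the four-torus which depend on one
coordinate only.
-/

open scoped ContDiff
open MeasureTheory

namespace Vale.Agent.Lib.P204

abbrev E4 := Fin 4 → ℝ
abbrev F2 := E4 [⋀^Fin 2]→L[ℝ] ℝ

lemma exists_coeffs (T : E4 →L[ℝ] E4) (hT : ∀ v, T (T v) = -v) (w l : E4)
    (hw0 : w 0 = 1) (hw1 : (T w) 0 = 0) (hl0 : l 0 = 0) (hl1 : (T l) 0 = 0) (hl : l ≠ 0)
    (l' : E4) (hl'0 : l' 0 = 0) (hl'1 : (T l') 0 = 0) : ∃ a b : ℝ, l' = a • l + b • T l := by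
  have hli : LinearIndependent ℝ ![w, T w, l, T l] := by
    rw [Fintype.linearIndependent_iff]
    intro g hg
    simp only [Fin.sum_univ_four, Matrix.cons_val_zero, Matrix.cons_val_one, Matrix.cons_val] at hg
    have h0 : g 0 = 0 := by
      have := congrFun hg 0
      simpa [hw0, hw1, hl0, hl1] using this
    have h1 : g 1 = 0 := by
      have := congrFun (congrArg T hg) 0
      simpa [hw0, hw1, hl0, hl1, hT, h0] using this
    have h2 : g 2 • l + g 3 • T l = 0 := by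
      simpa [h0, h1] using hg
    have h3 : g 2 • T l - g 3 • l = 0 := by
      have := congrArg T h2
      simpa [hT, sub_eq_add_neg] using this
    have h4 : (g 2 ^ 2 + g 3 ^ 2) • l = 0 := by
      have : (g 2 ^ 2 + g 3 ^ 2) • l = g 2 • (g 2 • l + g 3 • T l) - g 3 • (g 2 • T l - g 3 • l) := by
        module
      rw [this, h2, h3]; simp
    have h5 : g 2 ^ 2 + g 3 ^ 2 = 0 := by
      rcases smul_eq_zero.1 h4 with h | h
      · exact h
      · exact absurd h hl
    have h6 : g 2 = 0 := by nlinarith [sq_nonneg (g 2), sq_nonneg (g 3)]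
    have h7 : g 3 = 0 := by nlinarith [sq_nonneg (g 2), sq_nonneg (g 3)]
    intro i
    fin_cases i <;> simp [h0, h1, h6, h7]
  have hspan : Submodule.span ℝ (Set.range ![w, T w, l, T l]) = ⊤ :=
    hli.span_eq_top_of_card_eq_finrank' (by simp)
  have hmem : l' ∈ Submodule.span ℝ (Set.range ![w, T w, l, T l]) := by
    rw [hspan]; trivial
  obtain ⟨c, hc⟩ := (Submodule.mem_span_range_iff_exists_fun ℝ).1 hmem
  simp only [Fin.sum_univ_four, Matrix.cons_val_zero, Matrix.cons_val_one, Matrix.cons_val] at hc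
  have h0 : c 0 = 0 := by
    have := congrFun hc 0
    simpa [hw0, hw1, hl0, hl1, hl'0] using this
  have h1 : c 1 = 0 := by
    have := congrFun (congrArg T hc) 0
    simpa [hw0, hw1, hl0, hl1, hT, h0, hl'1] using this
  refine ⟨c 2, c 3, ?_⟩
  rw [← hc]; simp [h0, h1]

lemma eta_zero_on_L (T : E4 →L[ℝ] E4) (hT : ∀ v, T (T v) = -v)
    (η : E4 →L[ℝ] E4 →L[ℝ] ℝ) (hskew : ∀ u v, η u v = - η v u)
    (hanti : ∀ u v, η (T u) (T v) = - η u v) (w l l' : E4)
    (hw0 : w 0 = 1) (hw1 : (T w) 0 = 0) (hl0 : l 0 = 0) (hl1 : (T l) 0 = 0)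
    (hl'0 : l' 0 = 0) (hl'1 : (T l') 0 = 0) : η l l' = 0 := by
  by_cases hl : l = 0
  · simp [hl]
  obtain ⟨a, b, rfl⟩ := exists_coeffs T hT w l hw0 hw1 hl0 hl1 hl l' hl'0 hl'1
  have h1 : η l l = 0 := by have := hskew l l; linarith
  have h2 : η l (T l) = 0 := by
    have h3 := hanti l (T l)
    rw [hT] at h3
    have h4 := hskew (T l) l
    simp only [map_neg] at h3
    linarith
  simp [h1, h2]

lemma eta_formula (T : E4 →L[ℝ] E4) (hT : ∀ v, T (T v) = -v)
    (η : E4 →L[ℝ] E4 →L[ℝ] ℝ) (hskew : ∀ u v, η u v = - η v u)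
    (hanti : ∀ u v, η (T u) (T v) = - η u v) (w : E4)
    (hw0 : w 0 = 1) (hw1 : (T w) 0 = 0) (u v : E4) :
    η u v = u 0 * η w v - v 0 * η w u - (T u) 0 * η w (T v) + (T v) 0 * η w (T u) := by
  have key := eta_zero_on_L T hT η hskew hanti w (u - u 0 • w + (T u) 0 • T w)
    (v - v 0 • w + (T v) 0 • T w) hw0 hw1 (by simp [hw0, hw1]) (by simp [hw0, hw1, hT])
    (by simp [hw0, hw1]) (by simp [hw0, hw1, hT])
  have hww : η w w = 0 := by have := hskew w w; linarith
  have hTT : η (T w) (T w) = 0 := by have := hskew (T w) (T w); linarith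
  have hsw : ∀ z, η (T w) z = η w (T z) := by
    intro z
    have h3 := hanti w (T z)
    rw [hT] at h3
    simp only [map_neg] at h3
    linarith
  have hwT : η w (T w) = 0 := by
    have h5 := hsw w
    have h6 := hskew (T w) w
    linarith
  have hTw : η (T w) w = 0 := by rw [hsw]; exact hwT
  have h1 := hskew u w
  have h2 := hskew u (T w)
  simp only [map_sub, map_add, map_smul, sub_apply,
    add_apply, smul_apply, smul_eq_mul, hww, hTT, hwT, hTw,
    hsw, h1, h2] at key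
  linarith

/-- the corrected form -/
noncomputable def Aform (B : E4 →L[ℝ] E4 →L[ℝ] ℝ) (T : E4 →L[ℝ] E4) (w : E4) (s : ℝ) (u v : E4) : ℝ :=
  B u v - (u 0 * (B w v - B (T w) (T v)) - v 0 * (B w u - B (T w) (T u)))
    - s * (u 0 * (T v) 0 - v 0 * (T u) 0)

lemma Aform_invariant (B : E4 →L[ℝ] E4 →L[ℝ] ℝ) (hB : ∀ u v, B u v = - B v u)
    (T : E4 →L[ℝ] E4) (hT : ∀ v, T (T v) = -v) (w : E4)
    (hw0 : w 0 = 1) (hw1 : (T w) 0 = 0) (s : ℝ) (u v : E4) :
    Aform B T w s (T u) (T v) = Aform B T w s u v := by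
  have h := eta_formula T hT (B - B.bilinearComp T T)
    (by intro u v; simp [ContinuousLinearMap.bilinearComp_apply]; rw [hB u v, hB (T u) (T v)]; ring)
    (by intro u v; simp [ContinuousLinearMap.bilinearComp_apply, hT]) w hw0 hw1 u v
  simp only [sub_apply, ContinuousLinearMap.bilinearComp_apply, hT, map_neg] at h
  simp only [Aform, hT, map_neg, Pi.neg_apply]
  linarith

lemma Aform_on_L (B : E4 →L[ℝ] E4 →L[ℝ] ℝ) (T : E4 →L[ℝ] E4) (w : E4) (s : ℝ) (l : E4)
    (hl0 : l 0 = 0) (hl1 : (T l) 0 = 0) : Aform B T w s l (T l) = B l (T l) := by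
  simp [Aform, hl0, hl1]

lemma Aform_s (B : E4 →L[ℝ] E4 →L[ℝ] ℝ) (T : E4 →L[ℝ] E4) (hT : ∀ v, T (T v) = -v) (w : E4) (s : ℝ)
    (v : E4) : Aform B T w s v (T v) = Aform B T w 0 v (T v) + s * (v 0 ^ 2 + (T v) 0 ^ 2) := by
  simp only [Aform, hT, Pi.neg_apply]
  ring

noncomputable def bil (C : F2) : E4 →L[ℝ] E4 →L[ℝ] ℝ :=
  ((ContinuousAlternatingMap.ofSubsingletonLIE (𝕜 := ℝ) (E := E4) (F := ℝ) (0 : Fin 1)).symm.toContinuousLinearEquiv :
    (E4 [⋀^Fin 1]→L[ℝ] ℝ) →L[ℝ] (E4 →L[ℝ] ℝ)).comp C.curryLeft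

lemma bil_apply (C : F2) (u v : E4) : bil C u v = C ![u, v] := by
  simp only [bil, ContinuousLinearMap.coe_comp, Function.comp_apply]
  have : (Matrix.vecCons u fun _ : Fin 1 => v) = ![u, v] := by
    ext i j; fin_cases i <;> rfl
  simp [this]

noncomputable def wedge (a b : E4 →L[ℝ] ℝ) : F2 :=
  ContinuousAlternatingMap.alternatizeUncurryFin
    (a.smulRight (ContinuousAlternatingMap.ofSubsingleton ℝ E4 ℝ (0 : Fin 1) b))

lemma wedge_apply (a b : E4 →L[ℝ] ℝ) (u v : E4) : wedge a b ![u, v] = a u * b v - a v * b u := by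
  have : Fin.removeNth 1 ![u, v] 0 = u := rfl
  simp [wedge, ContinuousAlternatingMap.alternatizeUncurryFin_apply, Fin.sum_univ_two, this]
  ring

lemma clm_eq_sum (D : E4 →L[ℝ] ℝ) (k : E4) : ∑ i, k i * D (Pi.single i 1) = D k := by
  conv_rhs => rw [pi_eq_sum_univ' k]
  simp [map_sum]

lemma contDiff_eval (Ω : E4 → F2) (hΩs : ContDiff ℝ ∞ Ω) (m : Fin 2 → E4) :
    ContDiff ℝ ∞ (fun x => Ω x m) :=
  (ContinuousAlternatingMap.apply ℝ E4 ℝ m).contDiff.comp hΩs

lemma insertNth_one (i : Fin 4) (y : Fin 3 → ℝ) :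
    (Fin.insertNth i (1:ℝ) y : E4) =
      (Fin.insertNth i (0:ℝ) y : E4) + fun j => ((Pi.single i (1:ℤ) : Fin 4 → ℤ) j : ℝ) := by
  ext j
  rcases Fin.eq_self_or_eq_succAbove i j with rfl | ⟨j, rfl⟩
  · simp
  · simp [Fin.succAbove_ne]

lemma avg_const (Ω : E4 → F2) (hΩs : ContDiff ℝ ∞ Ω)
    (hΩper : ∀ (x : E4) (k : Fin 4 → ℤ), Ω (x + fun i => (k i : ℝ)) = Ω x)
    (hΩcl : ∀ x, extDeriv Ω x = 0) (k k' : E4) (hk : k 0 = 0) (hk' : k' 0 = 0)
    (t0 t1 : ℝ) (h : t0 ≤ t1) :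
    ∫ y in Set.Icc (0 : Fin 3 → ℝ) 1, Ω (Fin.insertNth 0 t1 y : E4) ![k, k'] =
      ∫ y in Set.Icc (0 : Fin 3 → ℝ) 1, Ω (Fin.insertNth 0 t0 y : E4) ![k, k'] := by
  set e0 : E4 := Pi.single 0 1 with he0
  set g1 : E4 → ℝ := fun x => Ω x ![k, k'] with hg1
  set g2 : E4 → ℝ := fun x => Ω x ![e0, k'] with hg2
  set g3 : E4 → ℝ := fun x => Ω x ![e0, k] with hg3
  have c1 : ContDiff ℝ ∞ g1 := contDiff_eval Ω hΩs _
  have c2 : ContDiff ℝ ∞ g2 := contDiff_eval Ω hΩs _
  have c3 : ContDiff ℝ ∞ g3 := contDiff_eval Ω hΩs _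
  have d1 : Differentiable ℝ g1 := c1.differentiable (by simp)
  have d2 : Differentiable ℝ g2 := c2.differentiable (by simp)
  have d3 : Differentiable ℝ g3 := c3.differentiable (by simp)
  set f : Fin 4 → E4 → ℝ := fun i x => e0 i * g1 x - k i * g2 x + k' i * g3 x with hf
  set f' : Fin 4 → E4 → E4 →L[ℝ] ℝ := fun i x =>
    e0 i • fderiv ℝ g1 x - k i • fderiv ℝ g2 x + k' i • fderiv ℝ g3 x with hf'
  have hdiv : ∀ x, ∑ i, f' i x (Pi.single i 1) = 0 := by
    intro x
    have hx := hΩcl x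
    have h2 := extDeriv_apply (hΩs.differentiable (by simp) x) ![e0, k, k']
    rw [hx] at h2
    simp only [hf', sub_apply, add_apply, smul_apply, smul_eq_mul,
      Finset.sum_add_distrib, Finset.sum_sub_distrib, clm_eq_sum]
    have r1 : Fin.removeNth 1 ![e0, k, k'] = ![e0, k'] := by
      ext i j; fin_cases i <;> rfl
    have r2 : Fin.removeNth 2 ![e0, k, k'] = ![e0, k] := by
      ext i j; fin_cases i <;> rfl
    simp [Fin.sum_univ_three, r1, r2] at h2
    linarith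
  have hle : (Fin.insertNth 0 t0 (0 : Fin 3 → ℝ) : E4) ≤ Fin.insertNth 0 t1 (1 : Fin 3 → ℝ) := by
    intro j
    rcases Fin.eq_self_or_eq_succAbove 0 j with rfl | ⟨j, rfl⟩
    · simpa using h
    · simp
  have main := integral_divergence_of_hasFDerivAt_off_countable'
    (Fin.insertNth 0 t0 (0 : Fin 3 → ℝ) : E4) (Fin.insertNth 0 t1 (1 : Fin 3 → ℝ)) hle f f' ∅
    Set.countable_empty
    (fun i => by
      apply Continuous.continuousOn
      have := c1.continuous; have := c2.continuous; have := c3.continuous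
      fun_prop)
    (fun x _ i => by
      have h1 := (d1 x).hasFDerivAt
      have h2 := (d2 x).hasFDerivAt
      have h3 := (d3 x).hasFDerivAt
      exact ((h1.const_mul (e0 i)).sub (h2.const_mul (k i))).add (h3.const_mul (k' i)))
    (by simp [hdiv])
  simp only [hdiv, integral_zero] at main
  rw [Fin.sum_univ_succ] at main
  have hz : ∀ i : Fin 3,
      ((∫ (x : Fin 3 → ℝ) in
            Set.Icc ((Fin.insertNth 0 t0 0 : E4) ∘ i.succ.succAbove)
              ((Fin.insertNth 0 t1 1 : E4) ∘ i.succ.succAbove),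
            f i.succ (i.succ.insertNth ((Fin.insertNth 0 t1 1 : E4) i.succ) x)) -
          ∫ (x : Fin 3 → ℝ) in
            Set.Icc ((Fin.insertNth 0 t0 0 : E4) ∘ i.succ.succAbove)
              ((Fin.insertNth 0 t1 1 : E4) ∘ i.succ.succAbove),
            f i.succ (i.succ.insertNth ((Fin.insertNth 0 t0 0 : E4) i.succ) x)) = 0 := by
    intro i
    have e1 : (Fin.insertNth 0 t1 1 : E4) i.succ = 1 := by
      simp
    have e2 : (Fin.insertNth 0 t0 0 : E4) i.succ = 0 := by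
      simp
    rw [e1, e2, sub_eq_zero]
    congr 1
    ext y
    simp only [hf, hg1, hg2, hg3]
    rw [insertNth_one, hΩper]
  simp only [hz, Finset.sum_const_zero, add_zero] at main
  have a1 : (Fin.insertNth 0 t0 0 : E4) ∘ Fin.succAbove 0 = 0 := by
    ext j; simp
  have a2 : (Fin.insertNth 0 t1 1 : E4) ∘ Fin.succAbove 0 = 1 := by
    ext j; simp
  have a3 : (Fin.insertNth 0 t1 1 : E4) 0 = t1 := by simp
  have a4 : (Fin.insertNth 0 t0 0 : E4) 0 = t0 := by simp
  rw [a1, a2, a3, a4] at main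
  simp only [hf, hk, hk', he0, Pi.single_eq_same, one_mul, zero_mul, sub_zero, add_zero] at main
  linarith

lemma exists_s {X : Type*} [TopologicalSpace X] (S : Set X) (hS : IsCompact S) (q p : X → ℝ)
    (hq : Continuous q) (hp : Continuous p) (hp0 : ∀ z ∈ S, 0 ≤ p z)
    (h : ∀ z ∈ S, p z = 0 → 0 < q z) : ∃ s : ℝ, 0 ≤ s ∧ ∀ z ∈ S, 0 < q z + s * p z := by
  have hS' : IsCompact (S ∩ {z | q z ≤ 0}) := hS.inter_right (isClosed_le hq continuous_const)
  by_cases hne : (S ∩ {z | q z ≤ 0}).Nonempty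
  · obtain ⟨z0, hz0, hmin0⟩ := hS'.exists_isMinOn hne hp.continuousOn
    obtain ⟨z1, hz1, hmin1⟩ := hS'.exists_isMinOn hne hq.continuousOn
    have hm : 0 < p z0 := by
      rcases (hp0 z0 hz0.1).lt_or_eq with h1 | h1
      · exact h1
      · have := h z0 hz0.1 h1.symm
        have h2 : q z0 ≤ 0 := hz0.2
        linarith
    have hq1 : q z1 ≤ 0 := hz1.2
    have hs0 : 0 ≤ (1 - q z1) / p z0 := div_nonneg (by linarith) hm.le
    refine ⟨(1 - q z1) / p z0, hs0, ?_⟩
    intro z hz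
    by_cases hqz : q z ≤ 0
    · have h1 : p z0 ≤ p z := hmin0 ⟨hz, hqz⟩
      have h2 : q z1 ≤ q z := hmin1 ⟨hz, hqz⟩
      have h3 : (1 - q z1) ≤ (1 - q z1) / p z0 * p z := by
        rw [div_mul_eq_mul_div, le_div_iff₀ hm]
        nlinarith
      linarith
    · have h1 : 0 ≤ (1 - q z1) / p z0 * p z := mul_nonneg hs0 (hp0 z hz)
      push Not at hqz
      linarith
  · refine ⟨0, le_rfl, ?_⟩
    intro z hz
    by_contra hcon
    apply hne
    refine ⟨z, hz, ?_⟩
    simp only [zero_mul, add_zero, not_lt] at hcon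
    exact hcon

lemma continuous_insert (t : ℝ) : Continuous (fun y : Fin 3 → ℝ => (Fin.insertNth 0 t y : E4)) := by
  apply continuous_pi
  intro j
  rcases Fin.eq_self_or_eq_succAbove 0 j with rfl | ⟨j, rfl⟩
  · simpa using continuous_const
  · simpa using continuous_apply j

lemma avg_eval (Ω : E4 → F2) (hΩ : Continuous Ω) (t : ℝ) (m : Fin 2 → E4) :
    (∫ y in Set.Icc (0 : Fin 3 → ℝ) 1, Ω (Fin.insertNth 0 t y : E4)) m =
      ∫ y in Set.Icc (0 : Fin 3 → ℝ) 1, Ω (Fin.insertNth 0 t y : E4) m := by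
  have hint : IntegrableOn (fun y : Fin 3 → ℝ => Ω (Fin.insertNth 0 t y : E4))
      (Set.Icc (0 : Fin 3 → ℝ) 1) :=
    (hΩ.comp (continuous_insert t)).continuousOn.integrableOn_compact isCompact_Icc
  exact ((ContinuousAlternatingMap.apply ℝ E4 ℝ m).integral_comp_comm hint).symm

lemma avg_pos (Ω : E4 → F2) (hΩ : Continuous Ω) (t : ℝ) (m : Fin 2 → E4)
    (hpos : ∀ y : Fin 3 → ℝ, 0 < Ω (Fin.insertNth 0 t y : E4) m) :
    0 < ∫ y in Set.Icc (0 : Fin 3 → ℝ) 1, Ω (Fin.insertNth 0 t y : E4) m := by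
  have hc : Continuous (fun y : Fin 3 → ℝ => Ω (Fin.insertNth 0 t y : E4) m) :=
    (ContinuousAlternatingMap.apply ℝ E4 ℝ m).continuous.comp (hΩ.comp (continuous_insert t))
  have hint : IntegrableOn (fun y : Fin 3 → ℝ => Ω (Fin.insertNth 0 t y : E4) m)
      (Set.Icc (0 : Fin 3 → ℝ) 1) :=
    hc.continuousOn.integrableOn_compact isCompact_Icc
  rw [integral_pos_iff_support_of_nonneg (fun y => (hpos y).le) hint]
  have : Function.support (fun y : Fin 3 → ℝ => Ω (Fin.insertNth 0 t y : E4) m) = Set.univ := by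
    ext y
    simp only [Function.mem_support, Set.mem_univ, iff_true]
    exact (hpos y).ne'
  rw [this]
  simp [Real.volume_Icc_pi]

lemma fderiv_dep0 (c : E4 → ℝ) (hc : Differentiable ℝ c)
    (hdep : ∀ x y : E4, x 0 = y 0 → c x = c y) (x z : E4) :
    fderiv ℝ c x z = z 0 * fderiv ℝ c x (Pi.single 0 1) := by
  set P : E4 →L[ℝ] E4 := (ContinuousLinearMap.proj (R := ℝ) (φ := fun _ : Fin 4 => ℝ) 0).smulRight
    (Pi.single 0 1 : E4) with hP
  have h1 : c = fun y => c (x + P (y - x)) := by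
    funext y
    apply hdep
    simp [hP]
  have hin : HasFDerivAt (fun y => x + P (y - x)) P x := by
    have h0 : HasFDerivAt (fun y : E4 => y - x) (ContinuousLinearMap.id ℝ E4) x :=
      (hasFDerivAt_id x).sub_const x
    have h00 : HasFDerivAt (fun y => P (y - x)) (P.comp (ContinuousLinearMap.id ℝ E4)) x :=
      P.hasFDerivAt.comp x h0
    simpa using h00.const_add x
  have h3 : HasFDerivAt c (fderiv ℝ c x) (x + P (x - x)) := by
    simpa using (hc x).hasFDerivAt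
  have h2 : HasFDerivAt (fun y => c (x + P (y - x))) ((fderiv ℝ c x).comp P) x := h3.comp x hin
  rw [← h1] at h2
  have h4 := (hc x).hasFDerivAt.unique h2
  have h5 := congrArg (fun L : E4 →L[ℝ] ℝ => L z) h4
  simp only [ContinuousLinearMap.coe_comp, Function.comp_apply] at h5
  rw [h5]
  simp [hP]

/-- the auxiliary vector -/
noncomputable def wv (T : E4 →L[ℝ] E4) : E4 :=
  (1 + ((T (Pi.single 0 1)) 0) ^ 2)⁻¹ • ((Pi.single 0 1 : E4) + (T (Pi.single 0 1)) 0 • T (Pi.single 0 1))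

lemma wv_zero (T : E4 →L[ℝ] E4) : (wv T) 0 = 1 := by
  have : (1 + ((T (Pi.single 0 1)) 0) ^ 2) ≠ 0 := by positivity
  simp only [wv, Pi.smul_apply, Pi.add_apply, Pi.single_eq_same, smul_eq_mul]
  field_simp

lemma wv_one (T : E4 →L[ℝ] E4) (hT : ∀ v, T (T v) = -v) : (T (wv T)) 0 = 0 := by
  simp [wv, hT]

lemma Aform_smul (B : E4 →L[ℝ] E4 →L[ℝ] ℝ) (T : E4 →L[ℝ] E4) (w : E4) (s c : ℝ) (v : E4) :
    Aform B T w s (c • v) (T (c • v)) = c ^ 2 * Aform B T w s v (T v) := by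
  simp only [Aform, map_smul, smul_apply, Pi.smul_apply, smul_eq_mul]
  ring

theorem main
    (J : E4 → (E4 →L[ℝ] E4)) (hJs : ContDiff ℝ ∞ J)
    (hJ2 : ∀ x v, J x (J x v) = -v)
    (hJper : ∀ (x : E4) (k : Fin 4 → ℤ), J (x + fun i => (k i : ℝ)) = J x)
    (hJinv : ∀ x y : E4, x 0 = y 0 → J x = J y)
    (Ω : E4 → F2) (hΩs : ContDiff ℝ ∞ Ω)
    (hΩper : ∀ (x : E4) (k : Fin 4 → ℤ), Ω (x + fun i => (k i : ℝ)) = Ω x)
    (hΩcl : ∀ x, extDeriv Ω x = 0)
    (htame : ∀ x v, v ≠ 0 → 0 < Ω x ![v, J x v]) :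
    ∃ Ω' : E4 → F2, ContDiff ℝ ∞ Ω' ∧
      (∀ (x : E4) (k : Fin 4 → ℤ), Ω' (x + fun i => (k i : ℝ)) = Ω' x) ∧
      (∀ x, extDeriv Ω' x = 0) ∧
      (∀ x v, v ≠ 0 → 0 < Ω' x ![v, J x v]) ∧
      (∀ x u v, Ω' x ![J x u, J x v] = Ω' x ![u, v]) := by
  classical
  set C : F2 := ∫ y in Set.Icc (0 : Fin 3 → ℝ) 1, Ω (Fin.insertNth 0 0 y : E4) with hC
  set B := bil C with hB
  have hBskew : ∀ u v, B u v = - B v u := by
    intro u v
    rw [hB, bil_apply, bil_apply]
    have h1 := C.map_swap ![v, u] (i := 0) (j := 1) (by decide)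
    have h2 : ![v, u] ∘ Equiv.swap (0 : Fin 2) 1 = ![u, v] := by
      ext i j; fin_cases i <;> rfl
    rw [h2] at h1
    exact h1
  have hJc : Continuous J := hJs.continuous
  set q : E4 × E4 → ℝ := fun z => Aform B (J z.1) (wv (J z.1)) 0 z.2 (J z.1 z.2) with hq
  set p : E4 × E4 → ℝ := fun z => (z.2 0) ^ 2 + ((J z.1 z.2) 0) ^ 2 with hp
  have hqc : Continuous q := by
    simp only [hq, Aform, wv]
    have hne : ∀ z : E4 × E4, (1 + ((J z.1 (Pi.single 0 1)) 0) ^ 2) ≠ 0 := by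
      intro z; positivity
    fun_prop (disch := assumption)
  have hpc : Continuous p := by
    simp only [hp]
    fun_prop
  obtain ⟨s, hs0, hs⟩ := exists_s (Set.Icc (0 : E4) 1 ×ˢ Metric.sphere (0 : E4) 1)
    (isCompact_Icc.prod (isCompact_sphere 0 1)) q p hqc hpc (fun z _ => by positivity) (by
      intro z hz hpz
      have hz2 : z.2 ≠ 0 := by
        have h1 : ‖z.2‖ = 1 := by simpa using hz.2
        intro h2
        rw [h2] at h1
        simp at h1
      have h0 : z.2 0 = 0 := by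
        have : (z.2 0) ^ 2 + ((J z.1 z.2) 0) ^ 2 = 0 := hpz
        nlinarith [sq_nonneg (z.2 0), sq_nonneg ((J z.1 z.2) 0)]
      have h1 : (J z.1 z.2) 0 = 0 := by
        have : (z.2 0) ^ 2 + ((J z.1 z.2) 0) ^ 2 = 0 := hpz
        nlinarith [sq_nonneg (z.2 0), sq_nonneg ((J z.1 z.2) 0)]
      show 0 < Aform B (J z.1) (wv (J z.1)) 0 z.2 (J z.1 z.2)
      rw [Aform_on_L _ _ _ _ _ h0 h1, hB, bil_apply, hC, avg_eval Ω hΩs.continuous 0,
        ← avg_const Ω hΩs hΩper hΩcl z.2 (J z.1 z.2) h0 h1 0 (z.1 0) (hz.1.1 0)]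
      apply avg_pos Ω hΩs.continuous
      intro y
      have : J z.1 = J (Fin.insertNth 0 (z.1 0) y : E4) := hJinv _ _ (by simp)
      rw [this]
      exact htame _ _ hz2)
  set cf : Fin 4 → E4 → ℝ := fun j x =>
    (B (wv (J x)) (Pi.single j 1) - B (J x (wv (J x))) (J x (Pi.single j 1)))
      + s * (J x (Pi.single j 1)) 0 with hcf
  set W : Fin 4 → F2 := fun j =>
    wedge (ContinuousLinearMap.proj (R := ℝ) (φ := fun _ : Fin 4 => ℝ) 0)
      (ContinuousLinearMap.proj (R := ℝ) (φ := fun _ : Fin 4 => ℝ) j) with hW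
  have hexp : ∀ x a b, (C - ∑ j, cf j x • W j) ![a, b]
      = C ![a, b] - ∑ j, cf j x * (a 0 * b j - b 0 * a j) := by
    intro x a b
    simp [hW, wedge_apply]
  have heval : ∀ x u v, (C - ∑ j, cf j x • W j) ![u, v] = Aform B (J x) (wv (J x)) s u v := by
    intro x u v
    rw [hexp]
    set D : E4 →L[ℝ] ℝ := B (wv (J x)) - (B (J x (wv (J x)))).comp (J x)
      + s • (ContinuousLinearMap.proj (R := ℝ) (φ := fun _ : Fin 4 => ℝ) 0).comp (J x) with hD
    have hDj : ∀ j, cf j x = D (Pi.single j 1) := by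
      intro j; simp [hD, hcf]
    have e1 := clm_eq_sum D u
    have e2 := clm_eq_sum D v
    have e3 : ∑ j, cf j x * (u 0 * v j - v 0 * u j) = u 0 * D v - v 0 * D u := by
      rw [← e1, ← e2, Finset.mul_sum, Finset.mul_sum, ← Finset.sum_sub_distrib]
      apply Finset.sum_congr rfl
      intro j _
      rw [hDj]; ring
    rw [e3]
    simp only [hD, Aform, hB, bil_apply, add_apply, sub_apply, smul_apply,
      ContinuousLinearMap.coe_comp, Function.comp_apply, ContinuousLinearMap.proj_apply, smul_eq_mul]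
    ring
  have hcfs : ∀ j, ContDiff ℝ ∞ (cf j) := by
    intro j
    simp only [hcf, wv]
    have hne : ∀ x : E4, (1 + ((J x (Pi.single 0 1)) 0) ^ 2) ≠ 0 := by
      intro z; positivity
    fun_prop (disch := assumption)
  have hcfd : ∀ j, Differentiable ℝ (cf j) := fun j => (hcfs j).differentiable (by simp)
  have hcfdep : ∀ j, ∀ x y : E4, x 0 = y 0 → cf j x = cf j y := by
    intro j x y hxy
    simp only [hcf, hJinv x y hxy]
  have hsm : ContDiff ℝ ∞ (fun x => C - ∑ j, cf j x • W j) := by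
    apply contDiff_const.sub
    apply ContDiff.sum
    intro j _
    exact (hcfs j).smul contDiff_const
  have hfd : ∀ (a b z x : E4), fderiv ℝ (fun x => (C - ∑ j, cf j x • W j) ![a, b]) x z
      = - ∑ j, z 0 * (fderiv ℝ (cf j) x (Pi.single 0 1)) * (a 0 * b j - b 0 * a j) := by
    intro a b z x
    have h1 : (fun x => (C - ∑ j, cf j x • W j) ![a, b])
        = fun x => C ![a, b] - ∑ j, cf j x * (a 0 * b j - b 0 * a j) := by
      funext x; exact hexp x a b
    rw [h1]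
    have hd : HasFDerivAt (fun x => C ![a, b] - ∑ j, cf j x * (a 0 * b j - b 0 * a j))
        (- ∑ j, (a 0 * b j - b 0 * a j) • fderiv ℝ (cf j) x) x := by
      apply HasFDerivAt.const_sub
      apply HasFDerivAt.fun_sum
      intro j _
      exact (hcfd j x).hasFDerivAt.mul_const _
    rw [hd.fderiv]
    simp only [neg_apply, sum_apply, smul_apply, smul_eq_mul]
    congr 1
    apply Finset.sum_congr rfl
    intro j _
    rw [fderiv_dep0 (cf j) (hcfd j) (hcfdep j) x z]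
    ring
  refine ⟨fun x => C - ∑ j, cf j x • W j, hsm, ?_, ?_, ?_, ?_⟩
  · intro x k
    simp only [hcf, hJper x k]
  · intro x
    ext m
    rw [extDeriv_apply (hsm.differentiable (by simp) x) m]
    have r0 : Fin.removeNth 0 m = ![m 1, m 2] := by
      ext i j; fin_cases i <;> rfl
    have r1 : Fin.removeNth 1 m = ![m 0, m 2] := by
      ext i j; fin_cases i <;> rfl
    have r2 : Fin.removeNth 2 m = ![m 0, m 1] := by
      ext i j; fin_cases i <;> rfl
    rw [Fin.sum_univ_three, r0, r1, r2, hfd, hfd, hfd]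
    have hz : (0 : E4 [⋀^Fin (2 + 1)]→L[ℝ] ℝ) m = 0 := rfl
    rw [hz]
    simp only [Fin.sum_univ_four, Fin.val_zero, Fin.val_one, Fin.val_two, pow_zero, pow_one,
      one_smul]
    ring
  · intro x v hv
    show 0 < (C - ∑ j, cf j x • W j) ![v, J x v]
    rw [heval]
    set x' : E4 := x + fun i => ((-⌊x i⌋ : ℤ) : ℝ) with hx'
    have hJx : J x' = J x := hJper x _
    have hx'mem : x' ∈ Set.Icc (0 : E4) 1 := by
      constructor
      · intro i
        simp only [hx', Pi.add_apply, Pi.zero_apply, Int.cast_neg]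
        linarith [Int.floor_le (x i)]
      · intro i
        simp only [hx', Pi.add_apply, Pi.one_apply, Int.cast_neg]
        linarith [Int.lt_floor_add_one (x i)]
    have hvn : 0 < ‖v‖ := norm_pos_iff.2 hv
    have hv'mem : ‖v‖⁻¹ • v ∈ Metric.sphere (0 : E4) 1 := by
      simp [norm_smul, hvn.ne']
    have key := hs (x', ‖v‖⁻¹ • v) ⟨hx'mem, hv'mem⟩
    simp only [hq, hp, hJx] at key
    rw [← Aform_s B (J x) (hJ2 x), Aform_smul] at key
    have hc : 0 < (‖v‖⁻¹) ^ 2 := by positivity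
    exact (mul_pos_iff_of_pos_left hc).1 key
  · intro x u v
    show (C - ∑ j, cf j x • W j) ![J x u, J x v] = (C - ∑ j, cf j x • W j) ![u, v]
    rw [heval, heval]
    exact Aform_invariant B hBskew (J x) (hJ2 x) (wv (J x)) (wv_zero _) (wv_one _ (hJ2 x)) s u v

end Vale.Agent.Lib.P204
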